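import Vale.Agent.P067.Alld.Bld.Defs

/-!
P067, module II-a: polynomial matrices act on `ℤ →₀ F_p` (column vectors of Laurent polynomials).
-/

namespace Vale.Agent.P067.Alld.Model

set_option linter.unusedSectionVars false

open Finset Polynomial
open Vale.Agent.P067.Alld.Bld (LV sh lo hi)

variable {p : ℕ} [Fact p.Prime] {n : ℕ} [NeZero n]

/-- The residue of an index. -/
def res (k : ℤ) : Fin n := ⟨(k % (n : ℤ)).toNat, by
  have hn : (0 : ℤ) < n := by exact_mod_cast Nat.pos_of_ne_zero (NeZero.ne n)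
  have := Int.emod_lt_of_pos k hn
  have := Int.emod_nonneg k hn.ne'
  omega⟩

lemma res_add_quo (k : ℤ) : ((res k : Fin n) : ℤ) + n * (k / (n : ℤ)) = k := by
  have hn : (0 : ℤ) < n := by exact_mod_cast Nat.pos_of_ne_zero (NeZero.ne n)
  have h0 := Int.emod_nonneg k hn.ne'
  simp only [res, Int.toNat_of_nonneg h0]
  exact Int.emod_add_mul_ediv k n

lemma exists_rep (k : ℤ) : ∃ (b : Fin n) (q : ℤ), k = (b : ℤ) + n * q :=
  ⟨res k, k / (n : ℤ), (res_add_quo k).symm⟩

lemma quo_rep (b : Fin n) (q : ℤ) : ((b : ℤ) + n * q) / (n : ℤ) = q := by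
  have hn : (0 : ℤ) < n := by exact_mod_cast Nat.pos_of_ne_zero (NeZero.ne n)
  rw [Int.add_mul_ediv_left _ _ hn.ne', Int.ediv_eq_zero_of_lt (by positivity)
    (by exact_mod_cast b.2), zero_add]

lemma res_rep (b : Fin n) (q : ℤ) : (res ((b : ℤ) + n * q) : Fin n) = b := by
  have h := res_add_quo (n := n) ((b : ℤ) + n * q)
  rw [quo_rep] at h
  exact Fin.ext (by omega)

lemma rep_inj {a b : Fin n} {q r : ℤ} (h : (a : ℤ) + n * q = (b : ℤ) + n * r) : a = b ∧ q = r := by
  refine ⟨?_, ?_⟩
  · rw [← res_rep a q, h, res_rep]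
  · rw [← quo_rep a q, h, quo_rep]

/-! ### shifts -/

lemma sh_single (c k : ℤ) (r : ZMod p) :
    sh p c (Finsupp.single k r) = Finsupp.single (k + c) r := by
  simp [sh]

lemma sh_sh (a b : ℤ) (x : LV p) : sh p a (sh p b x) = sh p (b + a) x := by
  suffices h : sh p a ∘ₗ sh p b = sh p (b + a) from LinearMap.congr_fun h x
  refine Finsupp.lhom_ext fun k r => ?_
  simp [sh, add_assoc]

lemma sh_zero (x : LV p) : sh p 0 x = x := by
  suffices h : sh p 0 = LinearMap.id from LinearMap.congr_fun h x
  refine Finsupp.lhom_ext fun k r => ?_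
  simp [sh]

lemma sh_apply (c : ℤ) (x : LV p) (k : ℤ) : sh p c x k = x (k - c) := by
  have h := Finsupp.mapDomain_apply (add_left_injective c) x (k - c)
  rw [sub_add_cancel] at h
  exact h

lemma mem_lo {a : ℤ} {x : LV p} : x ∈ lo p a ↔ ∀ k, a < k → x k = 0 := by
  simp [lo, Finsupp.mem_supported']

lemma mem_hi {a : ℤ} {x : LV p} : x ∈ hi p a ↔ ∀ k, k ≤ a → x k = 0 := by
  simp [hi, Finsupp.mem_supported']

lemma map_sh_lo (c a : ℤ) : (lo p a).map (sh p c) = lo p (a + c) := by
  rw [lo, lo, sh, Finsupp.lmapDomain_supported]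
  congr 1
  ext k
  simp only [Set.mem_image, Set.mem_ofPred_eq]
  exact ⟨fun ⟨l, hl, h⟩ => by omega, fun h => ⟨k - c, by omega, by omega⟩⟩

/-! ### polynomial column vectors -/

variable (p) in
/-- A polynomial in row `a`. -/
noncomputable def pol (a : Fin n) : (ZMod p)[X] →ₗ[ZMod p] LV p :=
  Polynomial.lsum fun i => Finsupp.lsingle ((a : ℤ) + n * i)

lemma pol_monomial (a : Fin n) (i : ℕ) (r : ZMod p) :
    pol p a (monomial i r) = Finsupp.single ((a : ℤ) + n * i) r := by
  simp [pol, Polynomial.sum_monomial_index]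

lemma pol_apply (a b : Fin n) (f : (ZMod p)[X]) (q : ℤ) :
    pol p a f ((b : ℤ) + n * q) = if a = b ∧ 0 ≤ q then f.coeff q.toNat else 0 := by
  induction f using Polynomial.induction_on' with
  | add f g hf hg =>
    rw [map_add (pol p a), Finsupp.add_apply, hf, hg]
    split_ifs <;> simp
  | monomial i r =>
    rw [pol_monomial, Finsupp.single_apply]
    by_cases h : (a : ℤ) + n * i = (b : ℤ) + n * q
    · obtain ⟨rfl, rfl⟩ := rep_inj h
      simp
    · rw [if_neg h]
      split_ifs with h'
      · rw [Polynomial.coeff_monomial, if_neg]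
        rintro rfl
        exact h (by rw [h'.1, Int.toNat_of_nonneg h'.2])
      · rfl

variable (p n) in
/-- A polynomial column vector. -/
noncomputable def vec : (Fin n → (ZMod p)[X]) →ₗ[ZMod p] LV p :=
  ∑ a : Fin n, pol p a ∘ₗ LinearMap.proj a

lemma vec_def (f : Fin n → (ZMod p)[X]) : vec p n f = ∑ a, pol p a (f a) := by
  simp [vec]

lemma vec_apply (f : Fin n → (ZMod p)[X]) (b : Fin n) (q : ℤ) :
    vec p n f ((b : ℤ) + n * q) = if 0 ≤ q then (f b).coeff q.toNat else 0 := by
  rw [vec_def, Finsupp.finsetSum_apply, Finset.sum_eq_single b]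
  · simp [pol_apply]
  · intro a _ hab; simp [pol_apply, hab]
  · simp

lemma vec_coeff (f : Fin n → (ZMod p)[X]) (b : Fin n) (i : ℕ) :
    vec p n f ((b : ℤ) + n * i) = (f b).coeff i := by
  simp [vec_apply]

lemma vec_injective : Function.Injective (vec p n) := fun f g h => funext fun b =>
  Polynomial.ext fun i => by rw [← vec_coeff f b i, h, vec_coeff]

lemma vec_nonneg (f : Fin n → (ZMod p)[X]) : vec p n f ∈ hi p (-1) := by
  rw [mem_hi]
  intro k hk
  obtain ⟨b, q, rfl⟩ := exists_rep (n := n) k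
  rw [vec_apply, if_neg]
  intro hq
  have : (0 : ℤ) ≤ n * q := by positivity
  omega

lemma vec_single (b : Fin n) (r : (ZMod p)[X]) : vec p n (Pi.single b r) = pol p b r := by
  rw [vec_def, Finset.sum_eq_single b]
  · simp
  · intro a _ hab; simp [Pi.single_eq_of_ne hab]
  · simp

lemma hi_le_range_vec : hi p (-1) ≤ LinearMap.range (vec p n) := by
  rw [hi, Finsupp.supported_eq_span_single, Submodule.span_le]
  rintro _ ⟨k, hk, rfl⟩
  obtain ⟨b, q, rfl⟩ := exists_rep (n := n) k
  have hq : 0 ≤ q := by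
    by_contra hq
    simp only [Set.mem_ofPred_eq] at hk
    have : (n : ℤ) * q ≤ (n : ℤ) * (-1) := mul_le_mul_of_nonneg_left (by omega) (by positivity)
    have := b.2
    omega
  refine ⟨Pi.single b (monomial q.toNat 1), ?_⟩
  rw [vec_single, pol_monomial, Int.toNat_of_nonneg hq]

lemma sh_pol (a : Fin n) (i : ℕ) (f : (ZMod p)[X]) :
    sh p (n * i) (pol p a f) = pol p a (f * X ^ i) := by
  induction f using Polynomial.induction_on' with
  | add f g hf hg => rw [map_add, map_add, hf, hg, add_mul, map_add]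
  | monomial j r =>
    rw [pol_monomial, sh_single, monomial_mul_X_pow, pol_monomial]
    push_cast
    ring_nf

/-! ### the action -/

variable (p n) in
/-- The action of a matrix. -/
noncomputable def act (g : Matrix (Fin n) (Fin n) (ZMod p)[X]) : LV p →ₗ[ZMod p] LV p :=
  Finsupp.linearCombination (ZMod p) fun k : ℤ =>
    sh p (n * (k / (n : ℤ))) (vec p n fun a => g a (res k))

lemma act_single (g : Matrix (Fin n) (Fin n) (ZMod p)[X]) (b : Fin n) (q : ℤ) :
    act p n g (Finsupp.single ((b : ℤ) + n * q) 1) = sh p (n * q) (vec p n fun a => g a b) := by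
  simp [act, quo_rep, res_rep]

lemma act_basis (g : Matrix (Fin n) (Fin n) (ZMod p)[X]) (b : Fin n) :
    act p n g (Finsupp.single (b : ℤ) 1) = vec p n fun a => g a b := by
  simpa [sh_zero] using act_single g b 0

lemma act_sh (g : Matrix (Fin n) (Fin n) (ZMod p)[X]) (q : ℤ) (x : LV p) :
    act p n g (sh p (n * q) x) = sh p (n * q) (act p n g x) := by
  suffices h : act p n g ∘ₗ sh p (n * q) = sh p (n * q) ∘ₗ act p n g from LinearMap.congr_fun h x
  refine Finsupp.lhom_ext' fun k => LinearMap.ext_ring ?_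
  obtain ⟨b, r, rfl⟩ := exists_rep (n := n) k
  simp only [LinearMap.comp_apply, Finsupp.lsingle_apply, sh_single]
  rw [show (b : ℤ) + n * r + n * q = (b : ℤ) + n * (r + q) by ring, act_single, act_single, sh_sh]
  congr 2
  ring

lemma act_pol (g : Matrix (Fin n) (Fin n) (ZMod p)[X]) (b : Fin n) (f : (ZMod p)[X]) :
    act p n g (pol p b f) = vec p n fun a => g a b * f := by
  induction f using Polynomial.induction_on' with
  | add f f' hf hf' =>
    rw [map_add, map_add, hf, hf', ← map_add]
    congr 1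
    funext a
    simp [mul_add]
  | monomial i r =>
    rw [pol_monomial, ← Finsupp.smul_single_one, map_smul, act_single,
      vec_def, vec_def, map_sum, Finset.smul_sum]
    refine Finset.sum_congr rfl fun a _ => ?_
    rw [sh_pol, ← map_smul]
    congr 1
    rw [← C_mul_X_pow_eq_monomial, smul_eq_C_mul]
    ring

lemma act_vec (g : Matrix (Fin n) (Fin n) (ZMod p)[X]) (f : Fin n → (ZMod p)[X]) :
    act p n g (vec p n f) = vec p n (g.mulVec f) := by
  rw [vec_def f, map_sum]
  simp only [act_pol]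
  rw [← map_sum]
  congr 1
  funext a
  simp [Matrix.mulVec, dotProduct]

lemma act_mul (g h : Matrix (Fin n) (Fin n) (ZMod p)[X]) (x : LV p) :
    act p n (g * h) x = act p n g (act p n h x) := by
  suffices e : act p n (g * h) = act p n g ∘ₗ act p n h from LinearMap.congr_fun e x
  refine Finsupp.lhom_ext' fun k => LinearMap.ext_ring ?_
  obtain ⟨b, q, rfl⟩ := exists_rep (n := n) k
  simp only [LinearMap.comp_apply, Finsupp.lsingle_apply]
  rw [act_single, act_single, act_sh, act_vec]
  rfl

lemma act_one (x : LV p) : act p n (1 : Matrix (Fin n) (Fin n) (ZMod p)[X]) x = x := by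
  suffices e : act p n (1 : Matrix (Fin n) (Fin n) (ZMod p)[X]) = LinearMap.id from
    LinearMap.congr_fun e x
  refine Finsupp.lhom_ext' fun k => LinearMap.ext_ring ?_
  obtain ⟨b, q, rfl⟩ := exists_rep (n := n) k
  simp only [LinearMap.comp_apply, Finsupp.lsingle_apply, LinearMap.id_apply]
  rw [act_single]
  have : (fun a => (1 : Matrix (Fin n) (Fin n) (ZMod p)[X]) a b) = Pi.single b 1 := by
    funext a
    simp [Matrix.one_apply, Pi.single_apply]
  rw [this, vec_single, ← monomial_zero_one, pol_monomial, sh_single]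
  simp

/-! ### matrices that are lower unitriangular mod `t` -/

/-- Lower unitriangular mod `t`. -/
def Low (g : Matrix (Fin n) (Fin n) (ZMod p)[X]) : Prop :=
  (∀ a, (g a a).coeff 0 = 1) ∧ ∀ a b, a < b → (g a b).coeff 0 = 0

variable {g : Matrix (Fin n) (Fin n) (ZMod p)[X]}

lemma act_single_tri (hg : Low g) (k l : ℤ) (hl : l ≤ k) :
    act p n g (Finsupp.single k 1) l = if l = k then 1 else 0 := by
  obtain ⟨b, q, rfl⟩ := exists_rep (n := n) k
  obtain ⟨a, r, rfl⟩ := exists_rep (n := n) l
  rw [act_single, sh_apply, show (a : ℤ) + n * r - n * q = (a : ℤ) + n * (r - q) by ring, vec_apply]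
  rcases lt_trichotomy r q with h | h | h
  · rw [if_neg (by omega), if_neg]
    exact fun e => h.ne (rep_inj e).2
  · subst h
    rw [if_pos (by omega), sub_self, Int.toNat_zero]
    rcases lt_or_eq_of_le (show a ≤ b from Fin.le_def.2 (by omega)) with hab | hab
    · rw [hg.2 a b hab, if_neg]
      exact fun e => hab.ne (rep_inj e).1
    · subst hab; rw [hg.1, if_pos rfl]
  · exfalso
    have h2 : (n : ℤ) * (q + 1) ≤ (n : ℤ) * r := mul_le_mul_of_nonneg_left (by omega) (by positivity)
    have := b.2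
    rw [mul_add, mul_one] at h2
    omega

lemma act_apply_of_zero_below (hg : Low g) {x : LV p} {m : ℤ} (hx : ∀ k, k < m → x k = 0) :
    ∀ l, l ≤ m → act p n g x l = if l = m then x m else 0 := by
  intro l hl
  conv_lhs => rw [← Finsupp.sum_single x, Finsupp.sum, map_sum, Finsupp.finsetSum_apply]
  have hterm : ∀ k ∈ x.support, act p n g (Finsupp.single k (x k)) l = if l = k then x k else 0 := by
    intro k hk
    have hmk : m ≤ k := by
      by_contra h
      exact Finsupp.mem_support_iff.1 hk (hx k (not_le.1 h))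
    rw [← Finsupp.smul_single_one, map_smul, Finsupp.smul_apply,
      act_single_tri hg k l (hl.trans hmk)]
    split_ifs <;> simp
  rw [Finset.sum_congr rfl hterm, Finset.sum_ite_eq]
  rcases eq_or_ne l m with rfl | hlm
  · rw [if_pos rfl]
    split_ifs with h
    · rfl
    · exact (Finsupp.notMem_support_iff.1 h).symm
  · rw [if_neg hlm]
    split_ifs with h
    · exact hx l (lt_of_le_of_ne hl hlm)
    · rfl

lemma act_mem_hi (hg : Low g) {x : LV p} {a : ℤ} (hx : x ∈ hi p a) : act p n g x ∈ hi p a := by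
  rw [mem_hi] at hx ⊢
  intro k hk
  rw [act_apply_of_zero_below hg (m := a + 1) (fun j hj => hx j (by omega)) k (by omega), if_neg]
  omega

lemma mem_hi_of_act (hg : Low g) {x : LV p} {a : ℤ} (hx : act p n g x ∈ hi p a) : x ∈ hi p a := by
  classical
  rw [mem_hi]
  by_contra h
  push Not at h
  obtain ⟨k, hka, hk⟩ := h
  set m := x.support.min' ⟨k, Finsupp.mem_support_iff.2 hk⟩ with hm
  have hmk : m ≤ k := Finset.min'_le _ _ (Finsupp.mem_support_iff.2 hk)
  have hbelow : ∀ j, j < m → x j = 0 := fun j hj => by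
    by_contra hj0
    exact absurd (Finset.min'_le _ _ (Finsupp.mem_support_iff.2 hj0)) (not_le.2 hj)
  have := act_apply_of_zero_below hg hbelow m le_rfl
  rw [if_pos rfl, (mem_hi.1 hx) m (by omega)] at this
  exact Finsupp.mem_support_iff.1 (Finset.min'_mem _ _) this.symm

/-- Columns are bounded above. -/
lemma exists_act_bound (g : Matrix (Fin n) (Fin n) (ZMod p)[X]) :
    ∃ D : ℤ, ∀ a, (lo p a).map (act p n g) ≤ lo p (a + D) := by
  classical
  set S : Finset ℤ := insert 0 (Finset.univ.biUnion fun b => (vec p n fun a => g a b).support)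
  refine ⟨S.max' (Finset.insert_nonempty _ _), fun a => ?_⟩
  rw [lo, Finsupp.supported_eq_span_single, Submodule.map_span, Submodule.span_le]
  rintro _ ⟨_, ⟨k, hk, rfl⟩, rfl⟩
  obtain ⟨b, q, rfl⟩ := exists_rep (n := n) k
  simp only [Set.mem_ofPred_eq] at hk
  show _ ∈ lo p _
  rw [mem_lo]
  intro l hl
  rw [act_single, sh_apply]
  by_contra h
  have : l - n * q ∈ S := Finset.mem_insert_of_mem
    (Finset.mem_biUnion.2 ⟨b, Finset.mem_univ _, Finsupp.mem_support_iff.2 h⟩)
  have := Finset.le_max' S _ this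
  omega

end Vale.Agent.P067.Alld.Model
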