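import Vale.Agent.P067.Alld.Model.Act

/-!
P067, module II-a: lattices complementary to `hi j`.
-/

set_option linter.unusedSectionVars false

namespace Vale.Agent.P067.Alld.Model

open Finset Module Polynomial
open Vale.Agent.P067.Alld.Bld (LV sh lo hi IsLat HasIdx BVert Good Rel)

variable {p : ℕ} [Fact p.Prime] {n : ℕ} [NeZero n]

lemma hi_anti {a b : ℤ} (h : a ≤ b) : hi p b ≤ hi p a :=
  Finsupp.supported_mono fun k (hk : b < k) => (lt_of_le_of_lt h hk : a < k)

lemma lo_mono {a b : ℤ} (h : a ≤ b) : lo p a ≤ lo p b :=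
  Finsupp.supported_mono fun k (hk : k ≤ a) => (le_trans hk h : k ≤ b)

lemma single_mem_lo {a k : ℤ} (h : k ≤ a) (r : ZMod p) : Finsupp.single k r ∈ lo p a :=
  Finsupp.single_mem_supported _ _ h

lemma single_mem_hi {a k : ℤ} (h : a < k) (r : ZMod p) : Finsupp.single k r ∈ hi p a :=
  Finsupp.single_mem_supported _ _ h

lemma lo_sup_hi (j : ℤ) : lo p j ⊔ hi p j = ⊤ := by
  rw [lo, hi, ← Finsupp.supported_union, ← Finsupp.supported_univ]
  congr 1
  ext k
  simpa using le_or_gt k j

lemma isCompl_lo_hi (j : ℤ) : IsCompl (lo p j) (hi p j) := by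
  refine ⟨Submodule.disjoint_def.2 fun x h1 h2 => Finsupp.ext fun k => ?_,
    codisjoint_iff.2 (lo_sup_hi j)⟩
  rcases le_or_gt k j with h | h
  · exact mem_hi.1 h2 k h
  · exact mem_lo.1 h1 k h

lemma decomp {W : Submodule (ZMod p) (LV p)} {j : ℤ} (hW : IsCompl W (hi p j)) (x : LV p) :
    ∃ w ∈ W, x - w ∈ hi p j := by
  obtain ⟨w, hw, h, hh, rfl⟩ := Submodule.mem_sup.1
    (show x ∈ W ⊔ hi p j by rw [hW.sup_eq_top]; exact Submodule.mem_top)
  exact ⟨w, hw, by simpa using hh⟩

/-- A lattice inside another one has smaller index. -/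
lemma index_le {W W' : Submodule (ZMod p) (LV p)} {j j' : ℤ} (hW : IsCompl W (hi p j))
    (hW' : IsCompl W' (hi p j')) (h : W' ≤ W) : j' ≤ j := by
  by_contra hlt
  push Not at hlt
  obtain ⟨w, hw, hd⟩ := decomp hW' (Finsupp.single j' 1)
  have h1 : Finsupp.single j' 1 - w ∈ hi p j := hi_anti hlt.le hd
  have h2 : w ∈ hi p j := by
    simpa using sub_mem (single_mem_hi (p := p) hlt 1) h1
  have h3 : w = 0 := Submodule.disjoint_def.1 hW.disjoint w (h hw) h2
  rw [h3, sub_zero] at hd
  simpa using mem_hi.1 hd j' le_rfl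

lemma index_unique {W : Submodule (ZMod p) (LV p)} {j j' : ℤ} (hW : IsCompl W (hi p j))
    (hW' : IsCompl W (hi p j')) : j = j' :=
  le_antisymm (index_le hW' hW le_rfl) (index_le hW hW' le_rfl)

lemma le_of_index_le {W W' : Submodule (ZMod p) (LV p)} {j j' : ℤ} (hW : IsCompl W (hi p j))
    (hW' : IsCompl W' (hi p j')) (hc : W ≤ W' ∨ W' ≤ W) (hj : j ≤ j') : W ≤ W' := by
  rcases hc with h | h
  · exact h
  · obtain rfl : j = j' := le_antisymm hj (index_le hW hW' h)
    intro x hx
    obtain ⟨w, hw, hd⟩ := decomp hW' x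
    have : x - w = 0 := Submodule.disjoint_def.1 hW.disjoint _ (sub_mem hx (h hw)) hd
    rw [sub_eq_zero.1 this]
    exact hw

/-- The dimension that defines the index. -/
lemma finrank_inf_hi {W : Submodule (ZMod p) (LV p)} {j a : ℤ} (hW : IsCompl W (hi p j))
    (ha : lo p a ≤ W) : (finrank (ZMod p) (W ⊓ hi p a : Submodule (ZMod p) (LV p)) : ℤ) = j - a := by
  have haj : a ≤ j := by
    by_contra hlt
    push Not at hlt
    have := Submodule.disjoint_def.1 hW.disjoint (Finsupp.single (j + 1) 1)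
      (ha (single_mem_lo (by omega) 1)) (single_mem_hi (by omega) 1)
    simp at this
  let φ : (W ⊓ hi p a : Submodule (ZMod p) (LV p)) →ₗ[ZMod p] (Finset.Ioc a j → ZMod p) :=
    LinearMap.pi fun k => Finsupp.lapply (k : ℤ) ∘ₗ (W ⊓ hi p a).subtype
  have hφ : ∀ x k, φ x k = (x : LV p) (k : ℤ) := fun x k => rfl
  have hbij : Function.Bijective φ := by
    constructor
    · refine LinearMap.ker_eq_bot.1 (LinearMap.ker_eq_bot'.2 fun x hx => Subtype.ext ?_)
      refine Submodule.disjoint_def.1 hW.disjoint _ x.2.1 (mem_hi.2 fun k hk => ?_)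
      rcases le_or_gt k a with h | h
      · exact mem_hi.1 x.2.2 k h
      · exact congrFun hx ⟨k, Finset.mem_Ioc.2 ⟨h, hk⟩⟩
    · intro c
      set y : LV p := ∑ k : Finset.Ioc a j, Finsupp.single (k : ℤ) (c k) with hy
      have hya : y ∈ hi p a :=
        sum_mem fun k _ => single_mem_hi (Finset.mem_Ioc.1 k.2).1 _
      obtain ⟨w, hw, hd⟩ := decomp hW y
      have hwa : w ∈ hi p a := by simpa using sub_mem hya (hi_anti haj hd)
      refine ⟨⟨w, hw, hwa⟩, funext fun k => ?_⟩
      rw [hφ]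
      have hk := mem_hi.1 hd k (Finset.mem_Ioc.1 k.2).2
      rw [Finsupp.sub_apply, sub_eq_zero] at hk
      rw [← hk, hy, Finsupp.finsetSum_apply, Finset.sum_eq_single k]
      · simp
      · intro l _ hlk
        exact Finsupp.single_eq_of_ne' fun e => hlk (Subtype.ext e)
      · simp
  rw [(LinearEquiv.ofBijective φ hbij).finrank_eq, Module.finrank_pi, Fintype.card_coe, Int.card_Ioc,
    Int.toNat_of_nonneg (by omega)]

lemma idx_eq {W : Submodule (ZMod p) (LV p)} {j j' : ℤ} (hW : IsCompl W (hi p j))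
    (h : HasIdx p W j') : j' = j := by
  obtain ⟨a, ha, he⟩ := h
  rw [finrank_inf_hi hW ha] at he
  omega

lemma sh_mem_of_nonpos {W : Submodule (ZMod p) (LV p)} (hW : W.map (sh p (-(n : ℤ))) ≤ W) {x : LV p}
    (hx : x ∈ W) {q : ℤ} (hq : q ≤ 0) : sh p (n * q) x ∈ W := by
  obtain ⟨m, rfl⟩ : ∃ m : ℕ, q = -(m : ℤ) := ⟨q.natAbs, by omega⟩
  clear hq
  induction m with
  | zero => simpa [sh_zero] using hx
  | succ m ih =>
    have := hW (Submodule.mem_map_of_mem (f := sh p (-(n : ℤ))) ih)
    rw [sh_sh] at this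
    convert this using 3
    push_cast
    ring

/-- A triangular map that sends `lo j` into a complement of `hi j` maps it onto the complement. -/
lemma map_act_eq {g : Matrix (Fin n) (Fin n) (ZMod p)[X]} (hg : Low g)
    {W : Submodule (ZMod p) (LV p)} {j : ℤ} (hW : IsCompl W (hi p j))
    (h : (lo p j).map (act p n g) ≤ W) : (lo p j).map (act p n g) = W := by
  set M := (lo p j).map (act p n g) ⊔ hi p j with hM
  have hsingle : ∀ m : ℕ, Finsupp.single (j - m) (1 : ZMod p) ∈ M := by
    intro m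
    induction m using Nat.strong_induction_on with
    | _ m ih =>
      have hhi : hi p (j - m) ≤ M := by
        rw [hi, Finsupp.supported_eq_span_single, Submodule.span_le]
        rintro _ ⟨l, hl, rfl⟩
        simp only [Set.mem_ofPred_eq] at hl
        rcases le_or_gt l j with h | h
        · have := ih (j - l).toNat (by omega)
          rwa [Int.toNat_of_nonneg (by omega), sub_sub_cancel] at this
        · exact Submodule.mem_sup_right (single_mem_hi h 1)
      have h1 : act p n g (Finsupp.single (j - m) 1) ∈ M :=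
        Submodule.mem_sup_left (Submodule.mem_map_of_mem (single_mem_lo (by omega) 1))
      have h2 : act p n g (Finsupp.single (j - m) 1) - Finsupp.single (j - m) 1 ∈ hi p (j - m) := by
        refine mem_hi.2 fun k hk => ?_
        rw [Finsupp.sub_apply, act_single_tri hg _ _ hk, Finsupp.single_apply]
        simp [eq_comm]
      simpa using sub_mem h1 (hhi h2)
  have htop : M = ⊤ := by
    rw [eq_top_iff, ← lo_sup_hi j, sup_le_iff]
    refine ⟨?_, le_sup_right⟩
    rw [lo, Finsupp.supported_eq_span_single, Submodule.span_le]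
    rintro _ ⟨l, hl, rfl⟩
    simp only [Set.mem_ofPred_eq] at hl
    have := hsingle (j - l).toNat
    rwa [Int.toNat_of_nonneg (by omega), sub_sub_cancel] at this
  refine le_antisymm h fun x hx => ?_
  obtain ⟨y, hy, z, hz, rfl⟩ := Submodule.mem_sup.1 (show x ∈ M by rw [htop]; exact Submodule.mem_top)
  have : z = 0 := Submodule.disjoint_def.1 hW.disjoint z (by simpa using sub_mem hx (h hy)) hz
  simpa [this] using hy

variable {g h : Matrix (Fin n) (Fin n) (ZMod p)[X]}

lemma isCompl_map (hg : Low g) (hgh : g * h = 1) (j : ℤ) :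
    IsCompl ((lo p j).map (act p n g)) (hi p j) := by
  refine ⟨Submodule.disjoint_def.2 ?_, codisjoint_iff.2 (eq_top_iff.2 fun x _ => ?_)⟩
  · rintro _ ⟨y, hy, rfl⟩ hx
    rw [Submodule.disjoint_def.1 (isCompl_lo_hi j).disjoint y hy (mem_hi_of_act hg hx), map_zero]
  · obtain ⟨w, hw, hd⟩ := decomp (isCompl_lo_hi j) (act p n h x)
    have hx : act p n g (act p n h x) = x := by rw [← act_mul, hgh, act_one]
    refine Submodule.mem_sup.2 ⟨_, Submodule.mem_map_of_mem hw, _, act_mem_hi hg hd, ?_⟩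
    rw [← map_add, add_sub_cancel, hx]

lemma exists_lo_le_map (hgh : g * h = 1) (j : ℤ) : ∃ a, lo p a ≤ (lo p j).map (act p n g) := by
  obtain ⟨D, hD⟩ := exists_act_bound (p := p) h
  refine ⟨j - D, fun x hx => ⟨act p n h x, ?_, by rw [← act_mul, hgh, act_one]⟩⟩
  have := hD (j - D) (Submodule.mem_map_of_mem hx)
  rwa [sub_add_cancel] at this

lemma map_sh_map (q a : ℤ) :
    ((lo p a).map (act p n g)).map (sh p (n * q)) = (lo p (a + n * q)).map (act p n g) := by
  rw [← map_sh_lo, ← Submodule.map_comp, ← Submodule.map_comp]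
  congr 1
  exact LinearMap.ext fun x => (act_sh g q x).symm

lemma isLat_map (hgh : g * h = 1) (j : ℤ) : IsLat p n ((lo p j).map (act p n g)) := by
  refine ⟨?_, ?_⟩
  · rw [show -(n : ℤ) = n * (-1) by ring, map_sh_map]
    exact Submodule.map_mono (lo_mono (by omega))
  · obtain ⟨a, ha⟩ := exists_lo_le_map hgh j
    obtain ⟨D, hD⟩ := exists_act_bound (p := p) g
    exact ⟨a, j + D, ha, hD j⟩

lemma hasIdx_map (hg : Low g) (hgh : g * h = 1) (j : ℤ) :
    HasIdx p ((lo p j).map (act p n g)) j := by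
  obtain ⟨a, ha⟩ := exists_lo_le_map hgh j
  exact ⟨a, ha, finrank_inf_hi (isCompl_map hg hgh j) ha⟩

end Vale.Agent.P067.Alld.Model
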