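import Vale.Agent.P067.Alld.Stmt
import Vale.Agent.P067.Alld.Model.Lattice

/-!
P067, module II-a: the stabilisers of the standard lattices and transitivity on good simplices.
-/

set_option linter.unusedSectionVars false

namespace Vale.Agent.P067.Alld.Model

open Finset Module Polynomial
open Vale.Agent.P067.Alld.Bld (LV sh lo hi IsLat HasIdx BVert Good Rel GSimp)

variable {p : ℕ} [Fact p.Prime] {n : ℕ} [NeZero n]

variable (p n) in
/-- The matrix ring. -/
abbrev SL : Type := Matrix.SpecialLinearGroup (Fin n) (ZMod p)[X]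

variable (p n) in
/-- The action of the special linear group. -/
noncomputable abbrev A (g : SL p n) : LV p →ₗ[ZMod p] LV p := act p n g.1

lemma coe_mul_inv (g : SL p n) : g.1 * (g⁻¹).1 = 1 := by
  rw [← Matrix.SpecialLinearGroup.coe_mul, mul_inv_cancel, Matrix.SpecialLinearGroup.coe_one]

lemma map_A_mul (g h : SL p n) (W : Submodule (ZMod p) (LV p)) :
    W.map (A p n (g * h)) = (W.map (A p n h)).map (A p n g) := by
  rw [← Submodule.map_comp]
  congr 1
  exact LinearMap.ext fun x => by simp [A, act_mul]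

lemma map_A_one (W : Submodule (ZMod p) (LV p)) : W.map (A p n 1) = W := by
  rw [show A p n 1 = LinearMap.id from LinearMap.ext fun x => by simp [A, act_one],
    Submodule.map_id]

lemma map_lo_le {f : LV p →ₗ[ZMod p] LV p} {a : ℤ} {W : Submodule (ZMod p) (LV p)}
    (h : ∀ k, k ≤ a → f (Finsupp.single k 1) ∈ W) : (lo p a).map f ≤ W := by
  rw [lo, Finsupp.supported_eq_span_single, Submodule.map_span, Submodule.span_le]
  rintro _ ⟨_, ⟨k, hk, rfl⟩, rfl⟩
  exact h k hk

/-! ### the rotation -/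

lemma rot_val (l a : Fin n) :
    (rot l a : ℕ) = if (l : ℕ) < a then (a : ℕ) - l - 1 else (a : ℕ) + n - l - 1 := by
  set r := if (l : ℕ) < a then (a : ℕ) - l - 1 else (a : ℕ) + n - l - 1 with hr
  have hl := l.2
  have ha := a.2
  have hrn : r < n := by rw [hr]; split_ifs <;> omega
  suffices h : rot l a = ⟨r, hrn⟩ by rw [h]
  rw [rot, sub_eq_iff_eq_add]
  apply Fin.ext
  simp only [Fin.val_add, Fin.val_one', Nat.add_mod_mod]
  rw [hr]
  split_ifs with h
  · rw [show (a : ℕ) - l - 1 + (l + 1) = a by omega, Nat.mod_eq_of_lt ha]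
  · rw [show (a : ℕ) + n - l - 1 + (l + 1) = a + n by omega, Nat.add_mod_right, Nat.mod_eq_of_lt ha]

/-! ### the stabiliser -/

lemma low_of_mem (hA : GamEqStmt) (hn : 3 ≤ n) {g : SL p n} (hg : g ∈ GamInf p n) : Low g.1 :=
  (hA n hn p g).1 hg

lemma loc_le_gam (l : Fin n) : loc (ZMod p) (ZMod p)[X] X l ≤ GamInf p n :=
  le_iSup (fun l : Fin n => loc (ZMod p) (ZMod p)[X] X l) l

lemma map_eq_of_loc (hA : GamEqStmt) (hn : 3 ≤ n) (l : Fin n) {g : SL p n}
    (hg : g ∈ loc (ZMod p) (ZMod p)[X] X l) :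
    (lo p (l : ℕ)).map (A p n g) = lo p (l : ℕ) := by
  induction hg using Subgroup.closure_induction with
  | one => exact map_A_one _
  | mul x y _ _ hx hy => rw [map_A_mul, hy, hx]
  | inv x _ hx =>
    conv_lhs => rw [← hx]
    rw [← map_A_mul, inv_mul_cancel, map_A_one]
  | mem x hx =>
    obtain ⟨u, hu, hxu⟩ := hx
    refine map_act_eq (low_of_mem hA hn (loc_le_gam l (Subgroup.subset_closure ⟨u, hu, hxu⟩)))
      (isCompl_lo_hi _) ?_
    refine map_lo_le fun k hk => ?_
    obtain ⟨b, q, rfl⟩ := exists_rep (n := n) k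
    rw [mem_lo]
    intro i hi'
    obtain ⟨a, r, rfl⟩ := exists_rep (n := n) i
    rw [act_single, sh_apply, show (a : ℤ) + n * r - n * q = (a : ℤ) + n * (r - q) by ring, vec_apply]
    split_ifs with hrq
    swap
    · rfl
    rw [hxu]
    simp only [twist, Polynomial.algebraMap_eq, Polynomial.coeff_C_mul_X_pow]
    split_ifs with he
    swap
    · rfl
    have hl := l.2
    have ha := a.2
    have hb := b.2
    have hq0 : q ≤ 0 := by
      by_contra h
      have : (n : ℤ) * 1 ≤ (n : ℤ) * q := mul_le_mul_of_nonneg_left (by omega) (by positivity)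
      omega
    rcases eq_or_lt_of_le hq0 with hq | hq
    · subst hq
      have hbl : b ≤ l := Fin.le_def.2 (by omega)
      have he0 : expo l a b = 0 := if_neg fun h => absurd h.2 (not_lt.2 hbl)
      have hr : r = 0 := by omega
      subst hr
      refine hu.2 _ _ (Fin.lt_def.2 ?_)
      rw [rot_val, rot_val, if_pos (by omega), if_neg (by omega)]
      omega
    · exfalso
      by_cases hc : a ≤ l ∧ l < b
      · have he1 : expo l a b = 1 := if_pos hc
        have : (n : ℤ) * r ≤ (n : ℤ) * 0 := mul_le_mul_of_nonneg_left (by omega) (by positivity)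
        have := Fin.le_def.1 hc.1
        omega
      · have he0 : expo l a b = 0 := if_neg hc
        have : (n : ℤ) * r ≤ (n : ℤ) * (-1) :=
          mul_le_mul_of_nonneg_left (by omega) (by positivity)
        omega

lemma mem_loc_of_map_eq {l : Fin n} {g : SL p n} (hg : Low g.1)
    (h : (lo p (l : ℕ)).map (A p n g) ≤ lo p (l : ℕ)) :
    g ∈ loc (ZMod p) (ZMod p)[X] X l := by
  have hl := l.2
  -- the coefficients above the line vanish
  have hz : ∀ (a b : Fin n) (q : ℤ) (i : ℕ), (b : ℤ) + n * q ≤ (l : ℕ) →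
      ((l : ℕ) : ℤ) < (a : ℤ) + n * (i + q) → (g.1 a b).coeff i = 0 := by
    intro a b q i hk hi'
    have h1 := mem_lo.1 (h (Submodule.mem_map_of_mem (single_mem_lo hk 1))) _ hi'
    rw [act_single, sh_apply,
      show (a : ℤ) + n * (i + q) - n * q = (a : ℤ) + n * i by ring] at h1
    rwa [vec_coeff] at h1
  have hoff : ∀ (a b : Fin n) (i : ℕ), i ≠ expo l a b → (g.1 a b).coeff i = 0 := by
    intro a b i hne
    have ha := a.2
    have hb := b.2
    by_cases hbl : b ≤ l
    · have he0 : expo l a b = 0 := if_neg fun h => absurd h.2 (not_lt.2 hbl)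
      refine hz a b 0 i (by simpa using hbl) ?_
      have : (n : ℤ) * 1 ≤ (n : ℤ) * (i : ℤ) := mul_le_mul_of_nonneg_left (by omega) (by positivity)
      rw [add_zero]
      omega
    · rw [Fin.le_def] at hbl
      by_cases hal : a ≤ l
      · have he1 : expo l a b = 1 := if_pos ⟨hal, Fin.lt_def.2 (by omega)⟩
        rw [Fin.le_def] at hal
        rcases Nat.eq_zero_or_pos i with hi0 | hi0
        · subst hi0; exact hg.2 a b (Fin.lt_def.2 (by omega))
        refine hz a b (-1) i (by omega) ?_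
        have : (n : ℤ) * 1 ≤ (n : ℤ) * ((i : ℤ) + -1) :=
          mul_le_mul_of_nonneg_left (by omega) (by positivity)
        omega
      · have he0 : expo l a b = 0 := if_neg fun h => hal h.1
        rw [Fin.le_def] at hal
        refine hz a b (-1) i (by omega) ?_
        have : (n : ℤ) * 0 ≤ (n : ℤ) * ((i : ℤ) + -1) :=
          mul_le_mul_of_nonneg_left (by omega) (by positivity)
        omega
  refine Subgroup.subset_closure ⟨fun r s =>
    (g.1 (r + (l + 1)) (s + (l + 1))).coeff (expo l (r + (l + 1)) (s + (l + 1))), ⟨fun r => ?_,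
      fun r s hrs => ?_⟩, ?_⟩
  · show (g.1 (r + (l + 1)) (r + (l + 1))).coeff _ = 1
    rw [show expo l (r + (l + 1)) (r + (l + 1)) = 0 from
      if_neg fun h => absurd h.2 (not_lt.2 h.1)]
    exact hg.1 _
  · show (g.1 (r + (l + 1)) (s + (l + 1))).coeff _ = 0
    have hr' : rot l (r + (l + 1)) = r := add_sub_cancel_right _ _
    have hs' : rot l (s + (l + 1)) = s := add_sub_cancel_right _ _
    set a := r + (l + 1)
    set b := s + (l + 1)
    clear_value a b
    rw [← hr', ← hs', Fin.lt_def, rot_val, rot_val] at hrs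
    have ha := a.2
    have hb := b.2
    by_cases hal : a ≤ l
    · by_cases hbl : b ≤ l
      · rw [show expo l a b = 0 from if_neg fun h => absurd h.2 (not_lt.2 hbl)]
        rw [Fin.le_def] at hal hbl
        rw [if_neg (by omega), if_neg (by omega)] at hrs
        exact hg.2 a b (Fin.lt_def.2 (by omega))
      · rw [Fin.le_def] at hal hbl
        rw [if_neg (by omega), if_pos (by omega)] at hrs
        omega
    · rw [show expo l a b = 0 from if_neg fun h => hal h.1]
      rw [Fin.le_def] at hal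
      by_cases hbl : (l : ℕ) < b
      · rw [if_pos (by omega), if_pos hbl] at hrs
        exact hg.2 a b (Fin.lt_def.2 (by omega))
      · exact hz a b 0 0 (by omega) (by simp; omega)
  · ext a b i
    simp only [twist, Polynomial.algebraMap_eq, rot, sub_add_cancel, Polynomial.coeff_C_mul_X_pow]
    split_ifs with he
    · rw [he]
    · exact hoff a b i he

/-! ### transitivity on good simplices -/

lemma good_index {W : BVert p n} (h : Good p n W) :
    ∃ j : ℕ, j < n ∧ IsCompl W.1 (hi p j) :=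
  let ⟨j, hj, _, hc⟩ := h
  ⟨j, hj, hc⟩

lemma rel_cmp {W W' : BVert p n} (h : Bld.Rel W W') : W.1 ≤ W'.1 ∨ W'.1 ≤ W.1 :=
  h.imp And.left And.left

lemma rel_le_shift {W W' : BVert p n} (h : Bld.Rel W W') : W.1 ≤ W'.1.map (sh p n) := by
  rcases h with ⟨h1, -⟩ | ⟨-, h2⟩
  · refine fun x hx => ⟨sh p (-(n : ℤ)) x, W'.2.1.1 (Submodule.mem_map_of_mem (h1 hx)), ?_⟩
    rw [sh_sh, neg_add_cancel, sh_zero]
  · exact h2

lemma exists_column {S : Finset (BVert p n)} (hS : GSimp S) (hne : S.Nonempty) (b : Fin n) :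
    ∃ v : LV p, v - Finsupp.single (b : ℤ) 1 ∈ hi p (b : ℤ) ∧ ∀ W ∈ S,
      (∀ j : ℕ, IsCompl W.1 (hi p j) → (b : ℕ) ≤ j → v ∈ W.1) ∧ sh p (-(n : ℤ)) v ∈ W.1 := by
  classical
  have hex : ∀ W ∈ S, ∃ j : ℕ, j < n ∧ IsCompl W.1 (hi p j) := fun W hW => good_index (hS.2 W hW)
  let typ : BVert p n → ℕ := fun W =>
    if h : ∃ j : ℕ, j < n ∧ IsCompl W.1 (hi p j) then h.choose else 0
  have htyp : ∀ W ∈ S, typ W < n ∧ IsCompl W.1 (hi p (typ W)) := fun W hW => by
    simp only [typ, dif_pos (hex W hW)]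
    exact (hex W hW).choose_spec
  by_cases hT : (S.filter fun W => (b : ℕ) ≤ typ W).Nonempty
  · obtain ⟨W₀, hW₀, hmin⟩ := Finset.exists_min_image _ typ hT
    obtain ⟨hW₀S, hb0⟩ := Finset.mem_filter.1 hW₀
    obtain ⟨v, hv, hd⟩ := decomp (htyp W₀ hW₀S).2 (Finsupp.single (b : ℤ) 1)
    refine ⟨v, ?_, fun W hW => ⟨fun j hj hbj => ?_, ?_⟩⟩
    · rw [← neg_sub]
      exact neg_mem (hi_anti (by exact_mod_cast hb0) hd)
    · have hje : (j : ℤ) = typ W := index_unique hj (htyp W hW).2
      refine le_of_index_le (htyp W₀ hW₀S).2 hj (rel_cmp (hS.1 W₀ hW₀S W hW)) ?_ hv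
      have := hmin W (Finset.mem_filter.2 ⟨hW, by omega⟩)
      omega
    · obtain ⟨w, hw, rfl⟩ := rel_le_shift (hS.1 W₀ hW₀S W hW) hv
      rwa [sh_sh, add_neg_cancel, sh_zero]
  · obtain ⟨W₁, hW₁, hmin⟩ := Finset.exists_min_image S typ hne
    obtain ⟨w, hw, hd⟩ := decomp (htyp W₁ hW₁).2 (Finsupp.single ((b : ℤ) - n) 1)
    refine ⟨sh p n w, ?_, fun W hW => ⟨fun j hj hbj => ?_, ?_⟩⟩
    · refine mem_hi.2 fun k hk => ?_
      have h1 := mem_hi.1 hd (k - n) (by have := b.2; omega)
      rw [Finsupp.sub_apply, Finsupp.single_apply] at h1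
      rw [Finsupp.sub_apply, sh_apply, Finsupp.single_apply]
      rw [sub_eq_zero] at h1 ⊢
      rw [← h1]
      simp
    · exfalso
      have hje : (j : ℤ) = typ W := index_unique hj (htyp W hW).2
      exact hT ⟨W, Finset.mem_filter.2 ⟨hW, by omega⟩⟩
    · rw [sh_sh, add_neg_cancel, sh_zero]
      exact le_of_index_le (htyp W₁ hW₁).2 (htyp W hW).2 (rel_cmp (hS.1 W₁ hW₁ W hW))
        (by exact_mod_cast hmin W hW) hw

lemma exists_gam (hA : GamEqStmt) (hn : 3 ≤ n) {S : Finset (BVert p n)} (hS : GSimp S) :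
    ∃ g ∈ GamInf p n, ∀ W ∈ S, ∀ j : ℕ, j < n → IsCompl W.1 (hi p j) →
      (lo p j).map (A p n g) = W.1 := by
  classical
  rcases S.eq_empty_or_nonempty with rfl | hne
  · exact ⟨1, one_mem _, by simp⟩
  choose v hv hvW using exists_column hS hne
  have hvec : ∀ b, v b ∈ LinearMap.range (vec p n) := fun b => hi_le_range_vec (by
    rw [← sub_add_cancel (v b) (Finsupp.single (b : ℤ) 1)]
    exact add_mem (hi_anti (by omega) (hv b)) (single_mem_hi (by omega) 1))
  choose f hf using hvec
  set g : Matrix (Fin n) (Fin n) (ZMod p)[X] := Matrix.of fun a b => f b a with hg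
  have hcol : ∀ b, vec p n (fun a => g a b) = v b := fun b => hf b
  have hcoef : ∀ a b : Fin n, (a : ℕ) ≤ b → (g a b).coeff 0 = if a = b then 1 else 0 := by
    intro a b hab
    have h1 := mem_hi.1 (hv b) (a : ℤ) (by omega)
    rw [Finsupp.sub_apply, sub_eq_zero, ← hcol b] at h1
    rw [← vec_coeff (fun a => g a b) a 0, Nat.cast_zero, mul_zero, add_zero, h1, Finsupp.single_apply]
    simp [Fin.ext_iff, eq_comm]
  have hlow : Low g := ⟨fun a => by simp [hcoef a a le_rfl],
    fun a b hab => by rw [hcoef a b hab.le, if_neg hab.ne]⟩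
  -- `g` carries the standard lattices to the given ones
  have hmap : ∀ W ∈ S, ∀ j : ℕ, j < n → IsCompl W.1 (hi p j) →
      (lo p j).map (act p n g) = W.1 := by
    intro W hW j hjn hj
    refine map_act_eq hlow hj ?_
    refine map_lo_le fun k hk => ?_
    obtain ⟨b, q, rfl⟩ := exists_rep (n := n) k
    rw [act_single, hcol]
    have hq0 : q ≤ 0 := by
      by_contra h
      have : (n : ℤ) * 1 ≤ (n : ℤ) * q := mul_le_mul_of_nonneg_left (by omega) (by positivity)
      omega
    rcases eq_or_lt_of_le hq0 with hq | hq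
    · subst hq
      rw [mul_zero, sh_zero]
      exact (hvW b W hW).1 j hj (by omega)
    · have := sh_mem_of_nonpos W.2.1.1 (hvW b W hW).2 (show q + 1 ≤ 0 by omega)
      rw [sh_sh] at this
      convert this using 3
      ring
  -- `g` is onto
  obtain ⟨W, hW⟩ := hne
  obtain ⟨j, hjn, hj⟩ := good_index (hS.2 W hW)
  obtain ⟨a, -, ha, -⟩ := W.2.1.2
  have hsurj : ∀ k : ℤ, ∃ x, act p n g x = Finsupp.single k 1 := by
    intro k
    set q : ℤ := max 0 (k - a)
    have hq : q ≤ (n : ℤ) * q :=
      le_mul_of_one_le_left (le_max_left _ _) (by exact_mod_cast (show 1 ≤ n by omega))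
    have hmem : Finsupp.single (k - n * q) (1 : ZMod p) ∈ W.1 :=
      ha (single_mem_lo (by omega) 1)
    rw [← hmap W hW j hjn hj] at hmem
    obtain ⟨y, -, hy⟩ := hmem
    refine ⟨sh p (n * q) y, ?_⟩
    rw [act_sh, hy, sh_single, sub_add_cancel]
  choose x hx using fun b : Fin n => hsurj b
  have hxvec : ∀ b, x b ∈ LinearMap.range (vec p n) := fun b => hi_le_range_vec
    (mem_hi_of_act hlow (by rw [hx b]; exact single_mem_hi (by omega) 1))
  choose c hc using hxvec
  have hgc : g * Matrix.of (fun a b => c b a) = 1 := by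
    refine Matrix.ext fun a b => ?_
    have h1 : g.mulVec (c b) = Pi.single b 1 := vec_injective (by
      rw [← act_vec, hc b, hx b, vec_single, ← monomial_zero_one, pol_monomial]
      simp)
    have h2 := congrFun h1 a
    rw [Matrix.mul_apply, Matrix.one_apply]
    simpa [Matrix.mulVec, dotProduct, Pi.single_apply, eq_comm] using h2
  have hdet : g.det = 1 := by
    have hu : IsUnit g.det := IsUnit.of_mul_eq_one _ (by rw [← Matrix.det_mul, hgc, Matrix.det_one])
    obtain ⟨r, -, hr⟩ := Polynomial.isUnit_iff.1 hu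
    have h0 : constantCoeff g.det = 1 := by
      rw [RingHom.map_det, Matrix.det_of_isLowerTriangular]
      · exact Finset.prod_eq_one fun a _ => by simp [RingHom.mapMatrix_apply, hlow.1]
      · intro a b hab
        have : a < b := hab
        simp [RingHom.mapMatrix_apply, hlow.2 a b this]
    rw [← hr] at h0 ⊢
    rw [show r = 1 by simpa using h0, map_one]
  exact ⟨⟨g, hdet⟩, (hA n hn p ⟨g, hdet⟩).2 hlow, hmap⟩

end Vale.Agent.P067.Alld.Model
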