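import Vale.Agent.P067.Alld.Bld.Stmt
import Vale.Agent.P067.Alld.Model.Gam

/-!
P067, module II-a: the coset complex of `Γ` is the complex of good lattices.
-/

set_option linter.unusedSectionVars false

namespace Vale.Agent.P067.Alld.Model

open Finset Module Polynomial
open Vale.Agent.P067.Alld.Bld (LV sh lo hi IsLat HasIdx BVert Good GSimp ModelStmt)

variable {p : ℕ} [Fact p.Prime] {n : ℕ} [NeZero n]

open Classical in
/-- The lattice of the vertex of type `l` of the chamber of `g`. -/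
noncomputable def lat (g : GamInf p n) (l : Fin n) : BVert p n :=
  ⟨if Low (g : SL p n).1 then (lo p (l : ℕ)).map (A p n g) else lo p (l : ℕ), by
    split_ifs with hg
    · exact ⟨isLat_map (coe_mul_inv (g : SL p n)) _,
        l, l.2, hasIdx_map hg (coe_mul_inv (g : SL p n)) _⟩
    · refine ⟨⟨?_, _, _, le_rfl, le_rfl⟩, l, l.2, _, le_rfl, finrank_inf_hi (isCompl_lo_hi _) le_rfl⟩
      rw [map_sh_lo]
      exact lo_mono (by omega)⟩

lemma lat_val (hA : GamEqStmt) (hn : 3 ≤ n) (g : GamInf p n) (l : Fin n) :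
    (lat g l).1 = (lo p (l : ℕ)).map (A p n g) :=
  if_pos (low_of_mem hA hn g.2)

/-- The comparison map. -/
noncomputable def phi (v : Vert (hInf p n)) : BVert p n := lat (Quotient.out v.2) v.1

lemma phi_pt (hA : GamEqStmt) (hn : 3 ≤ n) (g : GamInf p n) (l : Fin n) :
    (phi (pt (hInf p n) g l)).1 = (lo p (l : ℕ)).map (A p n g) := by
  obtain ⟨h, hh⟩ := QuotientGroup.mk_out_eq_mul (hInf p n l) g
  have e : (phi (pt (hInf p n) g l)) = lat (g * (h : GamInf p n)) l := by
    show lat (Quotient.out (QuotientGroup.mk g : GamInf p n ⧸ hInf p n l)) l = _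
    rw [← hh]
  rw [e, lat_val hA hn, Subgroup.coe_mul, map_A_mul,
    map_eq_of_loc hA hn l (Subgroup.mem_subgroupOf.1 h.2)]

lemma isCompl_phi (hA : GamEqStmt) (hn : 3 ≤ n) (g : GamInf p n) (l : Fin n) :
    IsCompl (phi (pt (hInf p n) g l)).1 (hi p (l : ℕ)) := by
  rw [phi_pt hA hn]
  exact isCompl_map (low_of_mem hA hn g.2) (coe_mul_inv _) _

lemma exists_pt (v : Vert (hInf p n)) : ∃ g, v = pt (hInf p n) g v.1 :=
  ⟨Quotient.out v.2, by obtain ⟨l, q⟩ := v; simp [pt]⟩

lemma phi_injective (hA : GamEqStmt) (hn : 3 ≤ n) : Function.Injective (phi (p := p) (n := n)) := by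
  intro v w hvw
  obtain ⟨g, hv⟩ := exists_pt v
  obtain ⟨g', hw⟩ := exists_pt w
  rw [hv, hw] at hvw ⊢
  have hvv := congrArg Subtype.val hvw
  have hl : v.1 = w.1 := by
    have h1 := isCompl_phi hA hn g v.1
    rw [hvv] at h1
    exact Fin.ext (by exact_mod_cast index_unique h1 (isCompl_phi hA hn g' w.1))
  rw [← hl] at hvv ⊢
  rw [phi_pt hA hn, phi_pt hA hn] at hvv
  refine congrArg (Sigma.mk v.1) (QuotientGroup.eq.2 (Subgroup.mem_subgroupOf.2 ?_))
  refine mem_loc_of_map_eq (low_of_mem hA hn (g⁻¹ * g').2) ?_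
  rw [Subgroup.coe_mul, map_A_mul, ← hvv, ← map_A_mul, Subgroup.coe_inv, inv_mul_cancel, map_A_one]

lemma good_phi (hA : GamEqStmt) (hn : 3 ≤ n) (v : Vert (hInf p n)) : Good p n (phi v) := by
  obtain ⟨g, hv⟩ := exists_pt v
  rw [hv]
  refine ⟨v.1, v.1.2, ?_, isCompl_phi hA hn g v.1⟩
  rw [phi_pt hA hn]
  exact hasIdx_map (low_of_mem hA hn g.2) (coe_mul_inv _) _

/-- II-a, given the identification of `Γ`. -/
theorem modelStmt (hA : GamEqStmt) : ModelStmt := by
  intro n hn p _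
  have : NeZero n := ⟨by omega⟩
  have hinj := phi_injective (p := p) (n := n) hA hn
  refine ⟨phi, hinj, fun W => ⟨fun hW => ?_, ?_⟩, fun _ σ => ⟨?_, fun hσ => ?_⟩⟩
  · have hS : GSimp ({W} : Finset (BVert p n)) := by
      have hrefl : W.1 ≤ W.1.map (sh p n) := fun x hx =>
        ⟨sh p (-(n : ℤ)) x, W.2.1.1 (Submodule.mem_map_of_mem hx),
          by rw [sh_sh, neg_add_cancel, sh_zero]⟩
      refine ⟨fun U hU U' hU' => ?_, fun U hU => ?_⟩
      · rw [Finset.mem_singleton.1 hU, Finset.mem_singleton.1 hU']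
        exact Or.inl ⟨le_rfl, hrefl⟩
      · rw [Finset.mem_singleton.1 hU]; exact hW
    obtain ⟨j, hjn, hj⟩ := good_index hW
    obtain ⟨g, hg, hgW⟩ := exists_gam hA hn hS
    refine ⟨pt (hInf p n) ⟨g, hg⟩ ⟨j, hjn⟩, Subtype.ext ?_⟩
    rw [phi_pt hA hn]
    exact hgW W (Finset.mem_singleton_self W) j hjn hj
  · rintro ⟨v, rfl⟩
    exact good_phi hA hn v
  · rintro ⟨g, hg⟩
    refine ⟨fun U hU U' hU' => ?_, fun U hU => ?_⟩
    · obtain ⟨v, hv, rfl⟩ := Finset.mem_image.1 hU
      obtain ⟨w, hw, rfl⟩ := Finset.mem_image.1 hU'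
      rw [hg v hv, hg w hw]
      simp only [Bld.Rel, phi_pt hA hn]
      have hshift : ∀ a : ℤ, ((lo p a).map (A p n g)).map (sh p n) =
          (lo p (a + n)).map (A p n g) := fun a => by
        simpa using map_sh_map (g := (g : SL p n).1) 1 a
      simp only [hshift]
      have hv' := v.1.2
      have hw' := w.1.2
      rcases le_total (v.1 : ℕ) (w.1 : ℕ) with h | h
      · exact Or.inl ⟨Submodule.map_mono (lo_mono (by omega)),
          Submodule.map_mono (lo_mono (by omega))⟩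
      · exact Or.inr ⟨Submodule.map_mono (lo_mono (by omega)),
          Submodule.map_mono (lo_mono (by omega))⟩
    · obtain ⟨v, _, rfl⟩ := Finset.mem_image.1 hU
      exact good_phi hA hn v
  · obtain ⟨g, hg, hgW⟩ := exists_gam hA hn hσ
    refine ⟨⟨g, hg⟩, fun v hv => hinj (Subtype.ext ?_)⟩
    obtain ⟨g', hv'⟩ := exists_pt v
    rw [phi_pt hA hn]
    refine (hgW (phi v) (Finset.mem_image_of_mem _ hv) v.1 v.1.2 ?_).symm
    rw [hv']
    exact isCompl_phi hA hn g' v.1

end Vale.Agent.P067.Alld.Model
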